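import Vale.Agent.P235.K5.Cap

/-!
P235, line EX, row [E4] (helper96): the bounds of the prescribed extension
`F = T / 8 + F₁ / 8 + (3 / 4) F₂` of a root metric `ρ`, for the shrunk path metric `D` and the
metric `d₂` = `D` shortened to `ρ` on the root triple.
-/

set_option autoImplicit false

namespace Vale.Agent.P235.K5.EX.H96

open SimpleGraph Vale.Agent.P235 Vale.Agent.P235.H134 Vale.Agent.P235.H56 Vale.Agent.P235.K5

/-- the metric `F` of the line EX -/
noncomputable def FF {V : Type} (T F₁ F₂ : V → V → ℝ) (x y : V) : ℝ :=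
  1 / 8 * T x y + 1 / 8 * F₁ x y + 3 / 4 * F₂ x y

theorem isL1_FF {V : Type} {T F₁ F₂ : V → V → ℝ} (hT : IsL1 T) (h₁ : IsL1 F₁) (h₂ : IsL1 F₂) :
    IsL1 (FF T F₁ F₂) := by
  have h := ((hT.smul (a := 1 / 8) (by norm_num)).add (h₁.smul (a := 1 / 8) (by norm_num))).add
    (h₂.smul (a := 3 / 4) (by norm_num))
  exact h

/-- **[E4]** exactness on the root, the lower bound with the same constant, the upper bound. -/
theorem bounds {V : Type} {c : ℝ} (hc : 0 < c) (hc1 : c ≤ 1) {d D d₂ T F₁ F₂ : V → V → ℝ}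
    (hd : IsMet d) (hD : IsMet D) {R : Fin 3 → V} {ρ : Fin 3 → Fin 3 → ℝ}
    (hDd : ∀ x y, D x y ≤ d x y) (hdD : ∀ x y, 3 / 4 * d x y ≤ D x y)
    (hlow : ∀ i j, c / 10 ^ 6 * d (R i) (R j) ≤ ρ i j)
    (hle : ∀ x y, d₂ x y ≤ D x y)
    (hcase : ∀ x y, d₂ x y = D x y ∨ ∃ i j, d₂ x y = D x (R i) + ρ i j + D (R j) y)
    (lT : IsL1 T) (eT : ∀ i j, T (R i) (R j) = ρ i j) (uT : ∀ x y, T x y ≤ D x y)
    (l₁ : IsL1 F₁) (e₁ : ∀ i j, F₁ (R i) (R j) = ρ i j)
    (low₁ : ∀ x y, c / 300 * d₂ x y ≤ F₁ x y) (u₁ : ∀ x y, F₁ x y ≤ d₂ x y)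
    (l₂ : IsL1 F₂) (e₂ : ∀ i j, F₂ (R i) (R j) = ρ i j) (u₂ : ∀ x y, F₂ x y ≤ D x y)
    (near₂ : ∀ x y, (∃ i j, D x (R i) + ρ i j + D (R j) y < 1 / 256 * D x y) →
      ∃ i j, ρ i j + D x (R i) + D (R j) y ≤ F₂ x y) :
    (∀ i j, FF T F₁ F₂ (R i) (R j) = ρ i j) ∧
      (∀ x y, c / 10 ^ 6 * d x y ≤ FF T F₁ F₂ x y) ∧
      (∀ x y, FF T F₁ F₂ x y ≤ D x y) ∧ (∀ x y, FF T F₁ F₂ x y ≤ d x y) ∧
      ∀ x y, FF T F₁ F₂ x y ≤ 1 / 8 * T x y + 7 / 8 * D x y := by
  have hup : ∀ x y, FF T F₁ F₂ x y ≤ 1 / 8 * T x y + 7 / 8 * D x y := by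
    intro x y
    have h1 := (u₁ x y).trans (hle x y)
    have h2 := u₂ x y
    unfold FF
    linarith
  have hupD : ∀ x y, FF T F₁ F₂ x y ≤ D x y := by
    intro x y
    have h1 := hup x y
    have h2 := uT x y
    linarith
  refine ⟨?_, ?_, hupD, fun x y => (hupD x y).trans (hDd x y), hup⟩
  · intro i j
    unfold FF
    rw [eT i j, e₁ i j, e₂ i j]
    ring
  · intro x y
    have hd0 := hd.nonneg x y
    have n2 := l₂.nonneg x y
    have nT := lT.nonneg x y
    have hDx := hdD x y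
    by_cases hfar : 1 / 256 * D x y ≤ d₂ x y
    · have h1 := low₁ x y
      have h2 : c / 300 * (1 / 256 * (3 / 4 * d x y)) ≤ c / 300 * d₂ x y := by
        refine mul_le_mul_of_nonneg_left ?_ (by positivity)
        linarith
      have h3 : c / 10 ^ 6 * d x y ≤ 1 / 8 * (c / 300 * (1 / 256 * (3 / 4 * d x y))) := by
        have h4 : 0 ≤ c * d x y := mul_nonneg hc.le hd0
        have e1 : c / 10 ^ 6 * d x y = c * d x y * (1 / 10 ^ 6) := by ring
        have e2 : 1 / 8 * (c / 300 * (1 / 256 * (3 / 4 * d x y))) =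
            c * d x y * (1 / 819200) := by ring
        rw [e1, e2]
        exact mul_le_mul_of_nonneg_left (by norm_num) h4
      unfold FF
      linarith
    · have hlt := not_le.1 hfar
      have hex : ∃ i j, D x (R i) + ρ i j + D (R j) y < 1 / 256 * D x y := by
        rcases hcase x y with h | ⟨i, j, h⟩
        · exfalso
          rw [h] at hlt
          linarith
        · exact ⟨i, j, by rw [← h]; exact hlt⟩
      obtain ⟨i, j, hij⟩ := near₂ x y hex
      have t1 : F₁ (R i) (R j) ≤ F₁ (R i) x + F₁ x (R j) := l₁.tri _ _ _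
      have t2 : F₁ x (R j) ≤ F₁ x y + F₁ y (R j) := l₁.tri _ _ _
      have u1 : F₁ (R i) x ≤ D (R i) x := (u₁ _ _).trans (hle _ _)
      have u2 : F₁ y (R j) ≤ D y (R j) := (u₁ _ _).trans (hle _ _)
      have t3 : T (R i) (R j) ≤ T (R i) x + T x (R j) := lT.tri _ _ _
      have t4 : T x (R j) ≤ T x y + T y (R j) := lT.tri _ _ _
      have u3 : T (R i) x ≤ D (R i) x := uT _ _
      have u4 : T y (R j) ≤ D y (R j) := uT _ _
      have s1 := hD.symm (R i) x
      have s2 := hD.symm y (R j)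
      have e := e₁ i j
      have e' := eT i j
      have hl := hlow i j
      have p1 := hd.nonneg x (R i)
      have p2 := hd.nonneg (R j) y
      have r1 := hdD x (R i)
      have r2 := hdD (R j) y
      have tt : d x y ≤ d x (R i) + d (R i) (R j) + d (R j) y :=
        (hd.tri x (R j) y).trans (add_le_add_left (hd.tri x (R i) (R j)) _)
      have hcc : c / 10 ^ 6 ≤ 3 / 8 := by
        have h6 : (1 : ℝ) ≤ 10 ^ 6 := by norm_num
        have h7 : c / 10 ^ 6 ≤ 1 / 10 ^ 6 := div_le_div_of_nonneg_right hc1 (by positivity)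
        have h8 : (1 : ℝ) / 10 ^ 6 ≤ 3 / 8 := by norm_num
        exact h7.trans h8
      have q1 : c / 10 ^ 6 * d x (R i) ≤ 3 / 8 * d x (R i) := mul_le_mul_of_nonneg_right hcc p1
      have q2 : c / 10 ^ 6 * d (R j) y ≤ 3 / 8 * d (R j) y := mul_le_mul_of_nonneg_right hcc p2
      have q3 : c / 10 ^ 6 * d x y ≤ c / 10 ^ 6 * (d x (R i) + d (R i) (R j) + d (R j) y) :=
        mul_le_mul_of_nonneg_left tt (by positivity)
      have q4 : c / 10 ^ 6 * (d x (R i) + d (R i) (R j) + d (R j) y) =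
          c / 10 ^ 6 * d x (R i) + c / 10 ^ 6 * d (R i) (R j) + c / 10 ^ 6 * d (R j) y := by ring
      unfold FF
      linarith

end Vale.Agent.P235.K5.EX.H96
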