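import Vale.Agent.P235.K5.EX.Defs
import Vale.Agent.P235.K5.EX.H96.Bd

/-!
P235, line EX, row [E4] (helper96): the prescribed metric on three roots, from [E1], [E2], [E3],
[E5], COLLAR and SHORT3.
-/

set_option autoImplicit false

namespace Vale.Agent.P235.K5.EX.H96

open SimpleGraph Vale.Agent.P235 Vale.Agent.P235.H134 Vale.Agent.P235.H56 Vale.Agent.P235.K5
open Vale.Agent.P235.K5.EX

theorem isL1_TT {V : Type} [Finite V] (e : Fin 3 → V → ℝ) : IsL1 (TT e) :=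
  ((isL1_line (e 0)).add (isL1_line (e 1))).add (isL1_line (e 2))

theorem tt_root {V : Type} {R : Fin 3 → V} {ρ : Fin 3 → Fin 3 → ℝ} (hρ : IsMet ρ)
    {e : Fin 3 → V → ℝ} (root : ∀ i, e i (R i) = ga ρ i)
    (root' : ∀ i j, i ≠ j → e j (R i) = 0) (nn : ∀ i, 0 ≤ ga ρ i) (i j : Fin 3) :
    TT e (R i) (R j) = ρ i j := by
  have r0 := root 0
  have r1 := root 1
  have r2 := root 2
  have a01 := root' 0 1 (by decide)
  have a02 := root' 0 2 (by decide)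
  have a10 := root' 1 0 (by decide)
  have a12 := root' 1 2 (by decide)
  have a20 := root' 2 0 (by decide)
  have a21 := root' 2 1 (by decide)
  have s01 := hρ.symm 0 1
  have s02 := hρ.symm 0 2
  have s12 := hρ.symm 1 2
  have g0 : ga ρ 0 = (ρ 0 1 + ρ 0 2 - ρ 1 2) / 2 := rfl
  have g1 : ga ρ 1 = (ρ 1 2 + ρ 1 0 - ρ 2 0) / 2 := rfl
  have g2 : ga ρ 2 = (ρ 2 0 + ρ 2 1 - ρ 0 1) / 2 := rfl
  have n0 := nn 0
  have n1 := nn 1
  have n2 := nn 2
  have z0 := hρ.self 0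
  have z1 := hρ.self 1
  have z2 := hρ.self 2
  unfold TT
  fin_cases i <;> fin_cases j <;>
    simp only [Fin.zero_eta, Fin.mk_one, Fin.reduceFinMk, r0, r1, r2, a01, a02, a10, a12, a20,
      a21, sub_self, abs_zero, add_zero, zero_add, sub_zero, zero_sub, abs_neg,
      abs_of_nonneg n0, abs_of_nonneg n1, abs_of_nonneg n2, z0, z1, z2] <;>
    linarith

/-- **[E4]** -/
theorem px3 (h₁ : TriKStmt) (h₂ : ShrStmt) (h₃ : CentreStmt) (h₅ : SLStmt) (hC : CollarStmt)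
    (hS : Short3Stmt) : PX3Stmt := by
  intro V _ G c hc hc1 hE d hd hg R hR ρ hρ hlow hup hsl
  have hinj : Function.Injective R := by
    intro i j hij
    by_contra hne
    exact (hR i j hne).ne hij
  obtain ⟨e, sh, D, S⟩ := h₂ V G d hd hg R hR ρ hρ hup
  have nn : ∀ i, 0 ≤ ga ρ i := fun i => (S.root i) ▸ S.e_nonneg i (R i)
  have eT : ∀ i j, TT e (R i) (R j) = ρ i j := tt_root hρ S.root S.root' nn
  have hρD : ∀ i j, ρ i j ≤ D (R i) (R j) := fun i j => (eT i j) ▸ S.tt_D (R i) (R j)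
  obtain ⟨d₂, m₂, g₂, r₂, le₂, case₂⟩ := hS V G D S.met S.gen R hR ρ hρ hρD
  have hcen := h₃ V G d hd R ρ hρ hup hsl e sh D S d₂ m₂ r₂ le₂ case₂
  obtain ⟨F₁, l₁, e₁, low₁, up₁⟩ := h₁ V G c 100 hc (by norm_num) hE d₂ m₂ g₂ R hR hcen
  obtain ⟨F₂, l₂, e₂, up₂, near₂⟩ := hC V D S.met R hinj ρ hρ hρD
  have e₁' : ∀ i j, F₁ (R i) (R j) = ρ i j := fun i j => (e₁ i j).trans (r₂ i j)
  have low₁' : ∀ x y, c / 300 * d₂ x y ≤ F₁ x y := by
    intro x y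
    have h := low₁ x y
    have e3 : (3 : ℝ) * 100 = 300 := by norm_num
    rw [e3] at h
    exact h
  obtain ⟨b1, b2, b3, b4, b5⟩ := bounds hc hc1 hd S.met S.le_d S.low hlow le₂ case₂ (isL1_TT e)
    eT S.tt_D l₁ e₁' low₁' up₁ l₂ e₂ up₂ near₂
  have lF : IsL1 (FF (TT e) F₁ F₂) := isL1_FF (isL1_TT e) l₁ l₂
  refine ⟨FF (TT e) F₁ F₂, lF, b1, b2, b4, ?_⟩
  refine h₅ V G d hd R ρ hρ hup hsl e sh D S (FF (TT e) F₁ F₂) lF.symm ?_
  intro x y hxy
  have h6 := b5 x y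
  have h7 := S.le_edge x y hxy
  linarith

end Vale.Agent.P235.K5.EX.H96
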